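import Vale.Agent.P286E12.W3

/-! Block inclusions of matrix rings. -/

set_option linter.all false

namespace Vale.Agent.P286E12

open Module Matrix Vale.Agent.P286EI

noncomputable section

variable {W : Type} [Ring W] [Algebra ℂ W] {n k l : ℕ}

/-- A constant matrix. -/
def cm (W : Type) [Ring W] [Algebra ℂ W] (P : Matrix (Fin n) (Fin k) ℂ) :
    Matrix (Fin n) (Fin k) W := P.map (algebraMap ℂ W)

theorem cm_mul (P : Matrix (Fin n) (Fin k) ℂ) (Q : Matrix (Fin k) (Fin l) ℂ) :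
    cm W P * cm W Q = cm W (P * Q) := (Matrix.map_mul (f := algebraMap ℂ W)).symm

theorem cm_one : cm W (1 : Matrix (Fin n) (Fin n) ℂ) = 1 := Matrix.map_one _ (map_zero _) (map_one _)

theorem cm_add (P Q : Matrix (Fin n) (Fin k) ℂ) : cm W (P + Q) = cm W P + cm W Q :=
  Matrix.ext fun p q => map_add (algebraMap ℂ W) (P p q) (Q p q)

theorem cm_sc (P : Matrix (Fin n) (Fin k) ℂ) (u : W) :
    cm W P * scalar (Fin k) u = scalar (Fin n) u * cm W P := by
  refine Matrix.ext fun p q => ?_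
  rw [scalar_apply, scalar_apply, mul_diagonal, diagonal_mul]
  exact Algebra.commutes _ _

/-- The map `z ↦ P z Q`. -/
def inc (W : Type) [Ring W] [Algebra ℂ W] (P : Matrix (Fin n) (Fin k) ℂ)
    (Q : Matrix (Fin k) (Fin n) ℂ) : Matrix (Fin k) (Fin k) W →ₗ[ℂ] Matrix (Fin n) (Fin n) W where
  toFun z := cm W P * z * cm W Q
  map_add' x y := by rw [Matrix.mul_add, Matrix.add_mul]
  map_smul' c x := by rw [Matrix.mul_smul, Matrix.smul_mul]; rfl

variable {P : Matrix (Fin n) (Fin k) ℂ} {Q : Matrix (Fin k) (Fin n) ℂ}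

theorem inc_apply (z : Matrix (Fin k) (Fin k) W) : inc W P Q z = cm W P * z * cm W Q := rfl

theorem inc_mul (h : Q * P = 1) (x y : Matrix (Fin k) (Fin k) W) :
    inc W P Q (x * y) = inc W P Q x * inc W P Q y := by
  simp only [inc_apply, Matrix.mul_assoc]
  rw [← Matrix.mul_assoc (cm W Q), cm_mul, h, cm_one, Matrix.one_mul]

theorem inc_inc (h : Q * P = 1) (x : Matrix (Fin k) (Fin k) W) : inc W Q P (inc W P Q x) = x := by
  simp only [inc_apply, Matrix.mul_assoc]
  rw [cm_mul, ← Matrix.mul_assoc, cm_mul, h, cm_one, Matrix.one_mul, Matrix.mul_one]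

theorem inc_one : inc W P Q 1 = cm W (P * Q) := by rw [inc_apply, Matrix.mul_one, cm_mul]

theorem inc_sc_l (u : W) (x : Matrix (Fin k) (Fin k) W) :
    inc W P Q (scalar (Fin k) u * x) = scalar (Fin n) u * inc W P Q x := by
  simp only [inc_apply, ← Matrix.mul_assoc, cm_sc]

theorem inc_sc_r (u : W) (x : Matrix (Fin k) (Fin k) W) :
    inc W P Q (x * scalar (Fin k) u) = inc W P Q x * scalar (Fin n) u := by
  simp only [inc_apply, Matrix.mul_assoc, cm_sc]

theorem inc_cm_l {S : Matrix (Fin n) (Fin n) ℂ} {S' : Matrix (Fin k) (Fin k) ℂ} (h : P * S' = S * P)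
    (x : Matrix (Fin k) (Fin k) W) : inc W P Q (cm W S' * x) = cm W S * inc W P Q x := by
  simp only [inc_apply, ← Matrix.mul_assoc, cm_mul, h]

theorem inc_cm_r {S : Matrix (Fin n) (Fin n) ℂ} {S' : Matrix (Fin k) (Fin k) ℂ} (h : S' * Q = Q * S)
    (x : Matrix (Fin k) (Fin k) W) : inc W P Q (x * cm W S') = inc W P Q x * cm W S := by
  simp only [inc_apply, Matrix.mul_assoc, cm_mul, h]

/-- A matrix entry. -/
def ent (W : Type) [Ring W] [Algebra ℂ W] (p q : Fin n) : Matrix (Fin n) (Fin n) W →ₗ[ℂ] W :=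
  ⟨⟨fun x => x p q, fun _ _ => rfl⟩, fun _ _ => rfl⟩

theorem ent_br (u : W) (s : Fin n → ℂ) (p q : Fin n) (x : Matrix (Fin n) (Fin n) W) :
    ent W p q (br (scalar (Fin n) u + cm W (diagonal s)) x) =
      br u (ent W p q x) - (s p - s q) • ent W p q x := by
  have e : scalar (Fin n) u + cm W (diagonal s) = diagonal fun i => u + algebraMap ℂ W (s i) := by
    rw [cm, diagonal_map (map_zero _), scalar_apply, diagonal_add]
  change (x * _ - _ * x : Matrix _ _ W) p q = x p q * u - u * x p q - (s p - s q) • x p q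
  rw [e, Matrix.sub_apply, mul_diagonal, diagonal_mul, mul_add, add_mul, sub_smul,
    ← Algebra.commutes, ← Algebra.smul_def, ← Algebra.smul_def]
  abel

/-- The first block. -/
def P1 : Matrix (Fin 3) (Fin 1) ℂ := !![1; 0; 0]

/-- The second block. -/
def P2 : Matrix (Fin 3) (Fin 2) ℂ := !![0, 0; 1, 0; 0, 1]

theorem P1_P1 : P1ᵀ * P1 = 1 := by
  ext i j
  fin_cases i; fin_cases j; simp [P1, mul_apply, Fin.sum_univ_three]

theorem P2_P2 : P2ᵀ * P2 = 1 := by
  ext i j
  fin_cases i <;> fin_cases j <;> simp [P2, mul_apply, Fin.sum_univ_three]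

theorem P_sum : P1 * P1ᵀ + P2 * P2ᵀ = 1 := by
  ext i j
  simp only [Matrix.add_apply, mul_apply, transpose_apply, Fin.sum_univ_two, Fin.sum_univ_one]
  fin_cases i <;> fin_cases j <;> simp [P1, P2]

theorem inc_dec (x : Matrix (Fin 3) (Fin 3) W) (h1 : x 0 1 = 0) (h2 : x 0 2 = 0) (h3 : x 1 0 = 0)
    (h4 : x 2 0 = 0) : x = inc W P1 P1ᵀ (inc W P1ᵀ P1 x) + inc W P2 P2ᵀ (inc W P2ᵀ P2 x) := by
  refine Matrix.ext fun i j => ?_
  fin_cases i <;> fin_cases j <;>
    simp [inc_apply, cm, P1, P2, mul_apply, Fin.sum_univ_three, Fin.sum_univ_two, *]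

theorem l3_dec (x : L3 (Matrix (Fin 3) (Fin 3) W)) (h1 : L3.map (ent W 0 1) x = 0)
    (h2 : L3.map (ent W 0 2) x = 0) (h3 : L3.map (ent W 1 0) x = 0)
    (h4 : L3.map (ent W 2 0) x = 0) : x = L3.map (inc W P1 P1ᵀ) (L3.map (inc W P1ᵀ P1) x) +
      L3.map (inc W P2 P2ᵀ) (L3.map (inc W P2ᵀ P2) x) :=
  L3.ext (inc_dec _ (congrArg L3.s h1) (congrArg L3.s h2) (congrArg L3.s h3) (congrArg L3.s h4))
    (funext fun a => inc_dec _ (congrArg (·.v a) h1) (congrArg (·.v a) h2) (congrArg (·.v a) h3)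
      (congrArg (·.v a) h4))
    (funext fun a => inc_dec _ (congrArg (·.w a) h1) (congrArg (·.w a) h2) (congrArg (·.w a) h3)
      (congrArg (·.w a) h4))
    (inc_dec _ (congrArg L3.t h1) (congrArg L3.t h2) (congrArg L3.t h3) (congrArg L3.t h4))

/-- The entries of an invariant element are eigenvectors. -/
theorem ent_eig (u : W) (s : Fin n → ℂ) (κ : ℂ) (a : Fin 3) (p q : Fin n)
    {x : L3 (Matrix (Fin n) (Fin n) W)}
    (h : L3.map (br (scalar (Fin n) u + cm W (diagonal s))) x + κ • L3.ad ℂ _ a x = 0) :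
    L3.map (br u) (L3.map (ent W p q) x) + κ • L3.ad ℂ _ a (L3.map (ent W p q) x) =
      (s p - s q) • L3.map (ent W p q) x := by
  have e : L3.map (ent W p q) (L3.map (br (scalar (Fin n) u + cm W (diagonal s))) x) =
      L3.map (br u) (L3.map (ent W p q) x) - (s p - s q) • L3.map (ent W p q) x :=
    L3.ext (ent_br u s p q _) (funext fun _ => ent_br u s p q _) (funext fun _ => ent_br u s p q _)
      (ent_br u s p q _)
  have := congrArg (L3.map (ent W p q)) h
  rw [map_add, map_smul, L3.map_ad, e, map_zero, sub_add_eq_add_sub, sub_eq_zero] at this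
  exact this

end

end Vale.Agent.P286E12
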