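import Vale.Agent.P286E12.Mx
import Vale.Agent.P286EX7.Br2
import Vale.Agent.P286EXR.Low
import Vale.Agent.P286E50.Split

/-! The splitting of the algebra of `1 + ℂ²`. -/

set_option linter.all false

namespace Vale.Agent.P286E12

open Matrix Complex Vale.Agent.P286EI Vale.Agent.P286EK Vale.Agent.P286E50 Vale.Agent.P286EL
  Vale.Agent.P286E48 Vale.Agent.P286E73 Vale.Agent.P286EXR Vale.Agent.P286EX Vale.Agent.P286E

noncomputable section

/-- A linear map which commutes with the moment maps. -/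
structure BH (B B' : BD) where
  f : B.M →ₗ[ℂ] B'.M
  κ : B.κ = B'.κ
  l : ∀ a x, f (B.μ a * x) = B'.μ a * f x
  r : ∀ a x, f (x * B.μ a) = f x * B'.μ a

namespace BH

variable {B B' : BD} (h : BH B B')

theorem adj_f (a : Fin 3) (x : B.M) : h.f (adj (B.μ a) x) = adj (B'.μ a) (h.f x) := by
  rw [adj_apply, adj_apply, map_sub, h.l, h.r]

theorem map_δ (a : Fin 3) (z : L3 B.M) : L3.map h.f (B.δ a z) = B'.δ a (L3.map h.f z) := by
  rw [BD.δ_apply, BD.δ_apply, map_add, map_smul, L3.map_ad, h.κ]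
  exact congrArg (· + _) (L3.ext (h.adj_f a _) (funext fun _ => h.adj_f a _)
    (funext fun _ => h.adj_f a _) (h.adj_f a _))

/-- The map of the invariants. -/
def lin : B.A.R →ₗ[ℂ] B'.A.R where
  toFun x := B'.mkA (L3.map h.f (B.ι x)) fun a => by rw [← h.map_δ, B.ι_δ, map_zero]
  map_add' x y := B'.ι_inj (by simp only [BD.ι_mkA, map_add])
  map_smul' c x := B'.ι_inj (by simp only [BD.ι_mkA, map_smul, RingHom.id_apply])

theorem ι_lin (x : B.A.R) : B'.ι (h.lin x) = L3.map h.f (B.ι x) := rfl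

/-- The homomorphism of DG algebras. -/
def nh (hm : ∀ x y, h.f (x * y) = h.f x * h.f y) : NHom B.A B'.A where
  f := h.lin
  mul x y := B'.ι_inj (by
    rw [ι_lin, map_mul B.ι, map_mul B'.ι, ι_lin, ι_lin]
    exact L3.map_ra _ _ _ _ (fun m p => hm p m) _ _)
  comm x := B'.ι_inj (by
    rw [ι_lin, BD.ι_d, BD.ι_d, ι_lin, BD.d, BD.d, ← h.κ]
    refine map_dL _ (fun a x => ?_) _
    change h.f (x * -B.μ a) = h.f x * -B'.μ a
    rw [mul_neg, mul_neg, map_neg, h.r])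
  deg m x hx := L3.map_mem h.f hx

theorem ι_nh (hm) (x : B.A.R) : B'.ι ((h.nh hm).f x) = L3.map h.f (B.ι x) := rfl

theorem ι_e (hm) : B'.ι (h.nh hm).e = L3.inl ℂ B'.M (h.f 1) :=
  (congrArg (L3.map h.f) (map_one B.ι)).trans (L3.map_inl h.f 1)

theorem nh_inj (hm) (hi : Function.Injective h.f) : Function.Injective (h.nh hm).f :=
  fun x y e => B.ι_inj (by
    have e := congrArg B'.ι e
    rw [ι_nh, ι_nh] at e
    exact L3.ext (hi (congrArg L3.s e)) (funext fun a => hi (congrArg (·.v a) e))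
      (funext fun a => hi (congrArg (·.w a) e)) (hi (congrArg L3.t e)))

theorem nh_l (hm) {x : B.A.R} {y : B'.A.R} {u : B.M} {v : B'.M} (hx : B.ι x = L3.inl ℂ B.M u)
    (hy : B'.ι y = L3.inl ℂ B'.M v) (e : h.f u = v * h.f 1) : (h.nh hm).f x = y * (h.nh hm).e :=
  B'.ι_inj (by rw [ι_nh, map_mul, ι_e, hx, hy, L3.map_inl, e, L3.inl_mul_inl])

theorem nh_r (hm) {x : B.A.R} {y : B'.A.R} {u : B.M} {v : B'.M} (hx : B.ι x = L3.inl ℂ B.M u)
    (hy : B'.ι y = L3.inl ℂ B'.M v) (e : h.f u = h.f 1 * v) : (h.nh hm).f x = (h.nh hm).e * y :=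
  B'.ι_inj (by rw [ι_nh, map_mul, ι_e, hx, hy, L3.map_inl, e, L3.inl_mul_inl])

end BH

section Mat

variable {n k : ℕ} {κ : ℂ} {r : Fin 3 → Matrix (Fin n) (Fin n) ℂ} {hr : Br κ r}
  {r' : Fin 3 → Matrix (Fin k) (Fin k) ℂ} {hr' : Br κ r'}

theorem MU_eq (a : Fin 3) : MU (mu3 κ) r a = scalar (Fin n) (mu3 κ a) + cm W3 (-(r a)ᵀ) := rfl

/-- The map `z ↦ P z Pᵀ`. -/
def bh (P : Matrix (Fin n) (Fin k) ℂ) (h1 : ∀ a, P * (r' a)ᵀ = (r a)ᵀ * P)
    (h2 : ∀ a, (r' a)ᵀ * Pᵀ = Pᵀ * (r a)ᵀ) : BH (bdM κ r' hr') (bdM κ r hr) where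
  f := inc W3 P Pᵀ
  κ := rfl
  l a x := by
    change inc W3 P Pᵀ (MU (mu3 κ) r' a * x) = MU (mu3 κ) r a * inc W3 P Pᵀ x
    rw [MU_eq, MU_eq, add_mul, add_mul, map_add, inc_sc_l, inc_cm_l]
    rw [Matrix.mul_neg, Matrix.neg_mul, h1]
  r a x := by
    change inc W3 P Pᵀ (x * MU (mu3 κ) r' a) = inc W3 P Pᵀ x * MU (mu3 κ) r a
    rw [MU_eq, MU_eq, mul_add, mul_add, map_add, inc_sc_r, inc_cm_r]
    rw [Matrix.mul_neg, Matrix.neg_mul, h2]

/-- The block inclusion. -/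
def wh (P : Matrix (Fin n) (Fin k) ℂ) (h0 : Pᵀ * P = 1) (h1 : ∀ a, P * (r' a)ᵀ = (r a)ᵀ * P)
    (h2 : ∀ a, (r' a)ᵀ * Pᵀ = Pᵀ * (r a)ᵀ) : WH (AM κ r' hr') (AM κ r hr) where
  φ := (bh (hr := hr) (hr' := hr') P h1 h2).nh (inc_mul h0)
  E_l := BH.nh_l _ _ (AM_E κ r' hr') (AM_E κ r hr)
    ((congrArg (inc W3 P Pᵀ) (mul_one _).symm).trans (inc_sc_l _ 1))
  E_r := BH.nh_r _ _ (AM_E κ r' hr') (AM_E κ r hr)
    ((congrArg (inc W3 P Pᵀ) (one_mul _).symm).trans (inc_sc_r _ 1))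
  q_l := BH.nh_l _ _ (AM_q κ r' hr') (AM_q κ r hr)
    ((congrArg (inc W3 P Pᵀ) (mul_one _).symm).trans (inc_sc_l _ 1))
  q_r := BH.nh_r _ _ (AM_q κ r' hr') (AM_q κ r hr)
    ((congrArg (inc W3 P Pᵀ) (one_mul _).symm).trans (inc_sc_r _ 1))

theorem ent_zero (hκ : κ = 2 * I) {s : Fin n → ℂ} (hs : (r 2)ᵀ = diagonal s) {p q : Fin n}
    (h : s p - s q = 1 ∨ s p - s q = -1) (x : (bdM κ r hr).A.R) :
    L3.map (ent W3 p q) ((bdM κ r hr).ι x) = 0 := by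
  have e : adj (MU (mu3 κ) r 2) = br (scalar (Fin n) (κ • (x0 0 * d0 1 - x0 1 * d0 0 : W3)) +
      cm W3 (diagonal s)) := LinearMap.ext fun z => by
    have e1 : scalar (Fin n) (κ • (x0 0 * d0 1 - x0 1 * d0 0 : W3)) + cm W3 (diagonal s) =
        -MU (mu3 κ) r 2 := by
      rw [eq_neg_iff_add_eq_zero, MU_eq, add_add_add_comm, ← map_add, ← cm_add, hs, add_neg_cancel]
      change scalar (Fin n) (κ • _ + κ • (x0 1 * d0 0 - x0 0 * d0 1 : W3)) + _ = 0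
      rw [← smul_add, sub_add_sub_cancel, sub_self, smul_zero, map_zero, zero_add]
      exact Matrix.map_zero _ (map_zero _)
    rw [e1, adj_apply, br_apply, mul_neg, neg_mul, neg_sub_neg]
  have h1 := (bdM κ r hr).ι_δ x 2
  rw [BD.δ_apply] at h1
  change L3.map (adj (MU (mu3 κ) r 2)) _ + κ • _ = 0 at h1
  rw [e] at h1
  refine rot_zero (c := 2) (fun a b => ?_) two_ne_zero ?_ (fun m hm => ?_) (ent_eig _ s κ 2 p q h1)
  · rw [MvPolynomial.pderiv_X, Pi.single_apply]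
    exact if_congr eq_comm rfl rfl
  · rw [hκ]
    linear_combination 4 * I_mul_I
  · rcases h with h | h <;> rw [h] at hm
    · have h3 : ((1 : ℤ) : ℂ) = ((m * 2 : ℤ) : ℂ) := by push_cast; exact hm
      have h4 := Int.cast_injective h3
      omega
    · have h3 : ((-1 : ℤ) : ℂ) = ((m * 2 : ℤ) : ℂ) := by push_cast; exact hm
      have h4 := Int.cast_injective h3
      omega

end Mat

theorem a1 (a : Fin 3) : P1 * (0 : Matrix (Fin 1) (Fin 1) ℂ)ᵀ = (blk 0 (p2 a))ᵀ * P1 := by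
  ext i j
  simp only [mul_apply, transpose_apply, Fin.sum_univ_three, Fin.sum_univ_one]
  fin_cases i <;> fin_cases j <;> simp [P1, blk]

theorem a2 (a : Fin 3) : (0 : Matrix (Fin 1) (Fin 1) ℂ)ᵀ * P1ᵀ = P1ᵀ * (blk 0 (p2 a))ᵀ := by
  ext i j
  simp only [mul_apply, transpose_apply, Fin.sum_univ_three, Fin.sum_univ_one]
  fin_cases i <;> fin_cases j <;> simp [P1, blk]

theorem b1 (a : Fin 3) : P2 * (p2 a)ᵀ = (blk 0 (p2 a))ᵀ * P2 := by
  ext i j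
  simp only [mul_apply, transpose_apply, Fin.sum_univ_three, Fin.sum_univ_two]
  fin_cases i <;> fin_cases j <;> simp [P2, blk]

theorem b2 (a : Fin 3) : (p2 a)ᵀ * P2ᵀ = P2ᵀ * (blk 0 (p2 a))ᵀ := by
  ext i j
  simp only [mul_apply, transpose_apply, Fin.sum_univ_three, Fin.sum_univ_two]
  fin_cases i <;> fin_cases j <;> simp [P2, blk]

theorem blk2 : (blk 0 (p2 2))ᵀ = diagonal ![(0 : ℂ), 1, -1] := by
  ext i j
  fin_cases i <;> fin_cases j <;> simp [blk, P286EXR.p2]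

section Spl

variable {κ : ℂ} (h1 : Br κ fun _ => (0 : Matrix (Fin 1) (Fin 1) ℂ)) (h2 : Br κ p2)
  (h3 : Br κ fun a => blk 0 (p2 a))

theorem spl (hκ : κ = 2 * I) : Spl (wh (hr := h3) (hr' := h1) P1 P1_P1 a1 a2).φ
    (wh (hr := h3) (hr' := h2) P2 P2_P2 b1 b2).φ where
  one := (bdM κ _ h3).ι_inj (by
    refine (map_add (bdM κ _ h3).ι _ _).trans ((congrArg₂ (· + ·) (BH.ι_e _ (inc_mul P1_P1))
      (BH.ι_e _ (inc_mul P2_P2))).trans
      ((map_add (L3.inl ℂ _) _ _).symm.trans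
        (Eq.trans (congrArg (L3.inl ℂ _) ?_) (map_one (bdM κ _ h3).ι).symm)))
    change inc W3 P1 P1ᵀ 1 + inc W3 P2 P2ᵀ 1 = 1
    rw [inc_one, inc_one, ← cm_add, P_sum, cm_one])
  inj₁ := BH.nh_inj _ (inc_mul P1_P1) (Function.LeftInverse.injective (inc_inc P1_P1))
  inj₂ := BH.nh_inj _ (inc_mul P2_P2) (Function.LeftInverse.injective (inc_inc P2_P2))
  sur x := ⟨(bh (hr := h1) (hr' := h3) P1ᵀ (fun a => (a2 a).symm) fun a => (a1 a).symm).lin x,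
    (bh (hr := h2) (hr' := h3) P2ᵀ (fun a => (b2 a).symm) fun a => (b1 a).symm).lin x,
    (bdM κ _ h3).ι_inj (l3_dec _ (ent_zero hκ blk2 (.inr (by simp)) x)
      (ent_zero hκ blk2 (.inl (by simp)) x) (ent_zero hκ blk2 (.inl (by simp)) x)
      (ent_zero hκ blk2 (.inr (by simp)) x))⟩

end Spl

variable (K : GK SL2)

/-- The first block. -/
def g1 : WH (AU (triv K)) (AU (u2 K)) :=
  wh (hr := (u2 K).dr_br) (hr' := (triv K).dr_br) P1 P1_P1 a1 a2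

/-- The second block. -/
def g2 : WH (AU (std K)) (AU (u2 K)) :=
  wh (hr := (u2 K).dr_br) (hr' := (std K).dr_br) P2 P2_P2 b1 b2

/-- **The splitting.** -/
theorem od : Spl (g1 K).φ (g2 K).φ :=
  spl (triv K).dr_br (std K).dr_br (u2 K).dr_br (kap2 K)

end

end Vale.Agent.P286E12
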