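import Vale.Agent.P286E12.Wt
import Vale.Agent.P286EI.L3
import Vale.Agent.P286EI.DW

/-! Integral weights on differential operators with ghosts. -/

set_option linter.all false

namespace Vale.Agent.P286E12

open Module MvPolynomial Vale.Agent.P286EI

noncomputable section

section Gh

variable {N : Type} [AddCommGroup N] [Module ℂ N] {T : End ℂ N} {κ c : ℂ}

/-- The product of ghosts and coefficients. -/
def gb (N : Type) [AddCommGroup N] [Module ℂ N] : N →ₗ[ℂ] L3 ℂ →ₗ[ℂ] L3 N :=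
  LinearMap.mk₂ ℂ (fun z u => L3.map (LinearMap.toSpanSingleton ℂ N z) u)
    (fun z z' u => L3.ext (smul_add _ _ _) (funext fun _ => smul_add _ _ _)
      (funext fun _ => smul_add _ _ _) (smul_add _ _ _))
    (fun a z u => L3.ext (smul_comm _ _ _) (funext fun _ => smul_comm _ _ _)
      (funext fun _ => smul_comm _ _ _) (smul_comm _ _ _))
    (fun z u u' => map_add _ _ _) fun a z u => map_smul _ _ _

theorem gb_apply (z : N) (u : L3 ℂ) : gb N z u = L3.map (LinearMap.toSpanSingleton ℂ N z) u := rfl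

theorem ad_cubic (a : Fin 3) (x : L3 N) :
    L3.ad ℂ N a (L3.ad ℂ N a (L3.ad ℂ N a x)) = -L3.ad ℂ N a x := by
  fin_cases a <;> refine L3.ext8 ?_ ?_ ?_ ?_ ?_ ?_ ?_ ?_ <;> simp [L3.ad_apply, L3.cx_apply]

theorem wt_l3 (a : Fin 3) (hc : c ≠ 0) (hk : c * c = -(κ * κ)) (h : ∀ z, z ∈ Wt T c) (x : L3 N) :
    x ∈ Wt (L3.map T + κ • L3.ad ℂ N a : End ℂ (L3 N)) c := by
  have k : ∀ z u, gb N z u ∈ Wt (L3.map T + κ • L3.ad ℂ N a : End ℂ (L3 N)) c := fun z u => by
    refine wt_bil (T := T) (S := κ • L3.ad ℂ ℂ a) (gb N) (fun z u => ?_) (h z) (wt_cubic hc ?_)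
    · simp only [LinearMap.add_apply, LinearMap.smul_apply, map_smul, gb_apply, L3.map_ad]
      refine congrArg (· + _) ?_
      exact L3.ext (T.map_smul u.s z) (funext fun b => T.map_smul (u.v b) z)
        (funext fun b => T.map_smul (u.w b) z) (T.map_smul u.t z)
    · simp only [LinearMap.smul_apply, map_smul, ad_cubic, smul_smul, hk, smul_neg, neg_mul,
        neg_smul, mul_assoc]
  have e : ∀ S z, L3.sgl ℂ S z = gb N z (L3.sgl ℂ S 1) := fun S z => by
    rw [gb_apply, L3.map_sgl, LinearMap.toSpanSingleton_apply, one_smul]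
  obtain ⟨f, rfl⟩ := (L3.co ℂ N).symm.surjective x
  rw [← Finset.univ_sum_single f, map_sum]
  refine Submodule.sum_mem _ fun S _ => ?_
  have := k (f S) (L3.sgl ℂ S 1)
  rwa [← e] at this

end Gh

section Op

variable {δ : Fin 3 → Derivation ℂ (MvPolynomial (Fin 3) ℂ) (MvPolynomial (Fin 3) ℂ)}
  {T : End ℂ (DO δ)} {c : ℂ}

theorem wt_do (h : ∀ x y, T (x * y) = T x * y + x * T y) (hX : ∀ a, DO.of δ (X a) ∈ Wt T c)
    (hD : ∀ a, DO.D δ a ∈ Wt T c) (x : DO δ) : x ∈ Wt T c := by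
  have h1 : T 1 = 0 := by
    have := h 1 1
    rw [mul_one, mul_one, one_mul] at this
    exact left_eq_add.1 this
  induction x using DO.ind with
  | h0 p =>
    induction p using MvPolynomial.induction_on with
    | C z =>
      rw [← algebraMap_eq, AlgHom.commutes, Algebra.algebraMap_eq_smul_one]
      exact Submodule.smul_mem _ _ (wt_zero h1)
    | add p q hp hq => rw [map_add]; exact add_mem hp hq
    | mul_X p a hp => rw [map_mul]; exact wt_mul h hp (hX a)
  | h1 k => exact hD k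
  | add x y hx hy => exact add_mem hx hy
  | mul x y hx hy => exact wt_mul h hx hy

end Op

section Rot

variable {W : Type} [Ring W] [Algebra ℂ W] {κ c : ℂ}

/-- The inner derivation `x ↦ x m - m x`. -/
def br (m : W) : End ℂ W := (LinearMap.mul ℂ W).flip m - LinearMap.mul ℂ W m

theorem br_apply (m x : W) : br m x = x * m - m * x := rfl

theorem br_mul (m x y : W) : br m (x * y) = br m x * y + x * br m y := by
  simp only [br_apply]
  noncomm_ring

theorem wt_pair {T : End ℂ W} (hc : c ≠ 0) (hk : c * c = -(κ * κ)) {u v : W} (h1 : T u = κ • v)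
    (h2 : T v = -(κ • u)) : u ∈ Wt T c ∧ v ∈ Wt T c := by
  refine ⟨wt_cubic hc ?_, wt_cubic hc ?_⟩ <;>
    simp only [h1, h2, map_smul, map_neg, hk, smul_neg, smul_smul, neg_mul, neg_smul, neg_neg,
      mul_assoc]

end Rot

theorem wt_rot {δ : Fin 3 → Derivation ℂ (MvPolynomial (Fin 3) ℂ) (MvPolynomial (Fin 3) ℂ)}
    (hδ : ∀ a b, δ a (X b) = if a = b then 1 else 0) {κ c : ℂ} (hc : c ≠ 0)
    (hk : c * c = -(κ * κ)) (x : DO δ) :
    x ∈ Wt (br (κ • (DO.of δ (X 0) * DO.D δ 1 - DO.of δ (X 1) * DO.D δ 0))) c := by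
  have e : ∀ a b, DO.D δ a * DO.of δ (X b) =
      DO.of δ (X b) * DO.D δ a + if a = b then 1 else 0 := fun a b => by
    rw [DO.D_of, hδ]
    split_ifs
    exacts [by rw [map_one], by rw [map_zero]]
  have yy : ∀ a b, DO.of δ (X a) * DO.of δ (X b) = DO.of δ (X b) * DO.of δ (X a) :=
    fun a b => DO.of_of _ _
  have y : ∀ a b k, br (DO.of δ (X a) * DO.D δ b) (DO.of δ (X k)) =
      -(if b = k then DO.of δ (X a) else 0) := fun a b k => by
    rw [br_apply, mul_assoc, e, mul_add, ← mul_assoc, ← mul_assoc, yy k a]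
    split_ifs <;> simp
  have d : ∀ a b k, br (DO.of δ (X a) * DO.D δ b) (DO.D δ k) =
      if k = a then DO.D δ b else 0 := fun a b k => by
    rw [br_apply, ← mul_assoc, e, add_mul, mul_assoc, mul_assoc, DO.D_D k b]
    split_ifs <;> simp
  have l : ∀ u v z : DO δ, br (κ • (u - v)) z = κ • (br u z - br v z) := fun u v z => by
    simp only [br_apply, mul_smul_comm, smul_mul_assoc, mul_sub, sub_mul, smul_sub]
    abel
  have py := wt_pair (T := br (κ • (DO.of δ (X 0) * DO.D δ 1 - DO.of δ (X 1) * DO.D δ 0)))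
    (u := DO.of δ (X 0)) (v := DO.of δ (X 1)) hc hk (by simp [l, y]) (by simp [l, y])
  have pd := wt_pair (T := br (κ • (DO.of δ (X 0) * DO.D δ 1 - DO.of δ (X 1) * DO.D δ 0)))
    (u := DO.D δ 0) (v := DO.D δ 1) hc hk (by simp [l, d]) (by simp [l, d])
  refine wt_do (br_mul _) (fun a => ?_) (fun a => ?_) x
  · fin_cases a
    exacts [py.1, py.2, wt_zero (by simp [l, y])]
  · fin_cases a
    exacts [pd.1, pd.2, wt_zero (by simp [l, d])]

/-- An eigenvector of a rotation with a non-integral weight vanishes. -/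
theorem rot_zero {δ : Fin 3 → Derivation ℂ (MvPolynomial (Fin 3) ℂ) (MvPolynomial (Fin 3) ℂ)}
    (hδ : ∀ a b, δ a (X b) = if a = b then 1 else 0) {κ c l : ℂ} (hc : c ≠ 0)
    (hk : c * c = -(κ * κ)) (hl : ∀ n : ℤ, l ≠ n * c) {x : L3 (DO δ)}
    (h : L3.map (br (κ • (DO.of δ (X 0) * DO.D δ 1 - DO.of δ (X 1) * DO.D δ 0))) x +
      κ • L3.ad ℂ _ 2 x = l • x) : x = 0 :=
  eq_zero_of_wt (wt_l3 2 hc hk (wt_rot hδ hc hk) x) h hl

end

end Vale.Agent.P286E12
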