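import Mathlib

/-! Integral weights of a derivation. -/

set_option linter.all false

namespace Vale.Agent.P286E12

open Module

noncomputable section

section

variable {M : Type*} [AddCommGroup M] [Module ℂ M] {T : End ℂ M} {c l : ℂ} {x : M}

/-- The span of the eigenvectors whose eigenvalue is an integral multiple of `c`. -/
def Wt (T : End ℂ M) (c : ℂ) : Submodule ℂ M := ⨆ n : ℤ, T.eigenspace (n * c)

theorem mem_wt (n : ℤ) (h : T x = (n * c) • x) : x ∈ Wt T c :=
  le_iSup (fun n : ℤ => T.eigenspace (n * c)) n (End.mem_eigenspace_iff.2 h)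

theorem wt_ind {P : M → Prop} (hx : x ∈ Wt T c) (h : ∀ (n : ℤ) y, T y = (n * c) • y → P y)
    (add : ∀ y z, P y → P z → P (y + z)) : P x :=
  Submodule.iSup_induction (fun n : ℤ => T.eigenspace (n * c)) (motive := P) hx
    (fun n y hy => h n y (End.mem_eigenspace_iff.1 hy)) (h 0 0 (by simp)) add

theorem wt_zero (h : T x = 0) : x ∈ Wt T c := mem_wt 0 (by simp [h])

theorem wt_cubic (hc : c ≠ 0) (h : T (T (T x)) = (c * c) • T x) : x ∈ Wt T c := by
  have e : x = (x - (c * c)⁻¹ • T (T x)) + (2 * c * c)⁻¹ • (T (T x) + c • T x) +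
      (2 * c * c)⁻¹ • (T (T x) - c • T x) := by
    have : (2 * c * c)⁻¹ + (2 * c * c)⁻¹ = (c * c)⁻¹ := by field_simp; ring
    rw [smul_add, smul_sub, ← this, add_smul]
    abel
  rw [e]
  refine add_mem (add_mem (wt_zero ?_) (Submodule.smul_mem _ _ (mem_wt 1 ?_)))
    (Submodule.smul_mem _ _ (mem_wt (-1) ?_))
  · rw [map_sub, map_smul, h, smul_smul, inv_mul_cancel₀ (mul_ne_zero hc hc), one_smul, sub_self]
  · rw [map_add, map_smul, h, Int.cast_one, one_mul, smul_add, smul_smul, add_comm]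
  · rw [map_sub, map_smul, h, Int.cast_neg, Int.cast_one, neg_one_mul, neg_smul, smul_sub,
      smul_smul, neg_sub]

/-- A vector of integral weights is not an eigenvector for another eigenvalue. -/
theorem eq_zero_of_wt (hx : x ∈ Wt T c) (h : T x = l • x) (hl : ∀ n : ℤ, l ≠ n * c) : x = 0 := by
  have h1 := (End.eigenspaces_iSupIndep T) l
  refine (Submodule.disjoint_def.1 h1) x (End.mem_eigenspace_iff.2 h) ?_
  refine (iSup_le fun n => ?_ : Wt T c ≤ _) hx
  exact le_iSup₂_of_le (f := fun (j : ℂ) (_ : j ≠ l) => T.eigenspace j) (n * c) (hl n).symm le_rfl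

/-- Weights of a bilinear product. -/
theorem wt_bil {N P : Type*} [AddCommGroup N] [Module ℂ N] [AddCommGroup P] [Module ℂ P]
    {S : End ℂ N} {U : End ℂ P} (B : M →ₗ[ℂ] N →ₗ[ℂ] P)
    (h : ∀ x y, U (B x y) = B (T x) y + B x (S y)) {y : N} (hx : x ∈ Wt T c) (hy : y ∈ Wt S c) :
    B x y ∈ Wt U c := by
  refine wt_ind (P := fun x => B x y ∈ Wt U c) hx (fun n x hx => ?_) fun a b ha hb => by
    rw [map_add, LinearMap.add_apply]; exact add_mem ha hb
  refine wt_ind (P := fun y => B x y ∈ Wt U c) hy (fun m y hy => mem_wt (n + m) ?_)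
    fun a b ha hb => by rw [map_add]; exact add_mem ha hb
  rw [h, hx, hy, map_smul, map_smul, LinearMap.smul_apply, ← add_smul, Int.cast_add, add_mul]

theorem wt_map {N : Type*} [AddCommGroup N] [Module ℂ N] {S : End ℂ N} (f : M →ₗ[ℂ] N)
    (h : ∀ x, S (f x) = f (T x)) (hx : x ∈ Wt T c) : f x ∈ Wt S c :=
  wt_ind (P := fun x => f x ∈ Wt S c) hx (fun n y hy => mem_wt n (by rw [h, hy, map_smul]))
    fun a b ha hb => by rw [map_add]; exact add_mem ha hb

end

theorem wt_mul {R : Type*} [Ring R] [Algebra ℂ R] {T : End ℂ R} {c : ℂ}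
    (h : ∀ x y, T (x * y) = T x * y + x * T y) {x y : R} (hx : x ∈ Wt T c) (hy : y ∈ Wt T c) :
    x * y ∈ Wt T c := wt_bil (LinearMap.mul ℂ R) h hx hy

end

end Vale.Agent.P286E12
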